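import Vale.Agent.P267.H983.RRFinal2
import Vale.Agent.P267.H221.Chi

/-!
# P267, package RR: the Riemann-Roch block

Finiteness of cohomology, Serre duality, Riemann-Roch and Noether's formula on compact
complex surfaces (the interface of `H221/Out.lean`).
-/

open scoped Manifold ContDiff ComplexConjugate Matrix
open MeasureTheory Set Filter Topology

noncomputable section

namespace Vale.Agent.P267.RR

open FL H285 H439 H983

/-- **the trace formula for the Euler characteristic** -/
theorem PS.chi_eq {X : Type*} [TopologicalSpace X] [ChartedSpace C2 X] [CompactSpace X]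
    [T2Space X] [IsManifold 𝓘(ℂ, C2) ω X] {A : FinAt X} {r : ℕ} {B : Bun A r} (P : PS B) :
    (B.chi : ℂ) = ∑ a, ∫ z, (A.r a z : ℂ) * P.dens a z := by
  obtain ⟨C, hC⟩ := exists_cplxOf P
  exact P.chi_eq_of C hC.i0 hC.i1 hC.i2 hC.d0 hC.d1

theorem chiStmt (X : Type) [TopologicalSpace X] [T2Space X] [CompactSpace X]
    [ChartedSpace C2 X] [IsManifold 𝓘(ℂ, C2) ω X] : ChiStmt X :=
  fun _ _ _ P => P.chi_eq

/-- **the analytic input, unconditionally** -/
theorem analytic (X : Type) [TopologicalSpace X] [T2Space X] [CompactSpace X]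
    [ChartedSpace C2 X] [IsManifold 𝓘(ℂ, C2) ω X] : Analytic X :=
  analytic_of_chi (chiStmt X)

/-- **the Riemann-Roch block** -/
theorem rrBlock : RRBlock := rrBlock_of_chi fun X => chiStmt X

end Vale.Agent.P267.RR
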